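import Vale.Agent.Lib.P304.Basic

namespace Vale.Agent.Results.P304.MonotoneBounded

open Vale.Agent.Lib.P304

/-- Monotonicity in the number of servers: the supremum of the randomized competitive ratio
of the `k`-server problem over all bounded metric spaces with at least `k + 1` points is at
most the corresponding supremum for `k + 1` servers. -/
theorem result (k : ℕ) (hk : 1 ≤ k) : Rbdd k ≤ Rbdd (k + 1) :=
  Rbdd_mono k hk

end Vale.Agent.Results.P304.MonotoneBounded
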