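import Vale.Agent.Lib.P304.Basic

namespace Vale.Agent.Results.P304.PaddingLemma

open Vale.Agent.Lib.P304

/-- Padding lemma: adding to a bounded metric space `X` one point at distance `1 + diam X`
from all of `X`, and one server placed on it, does not decrease the randomized competitive
ratio. -/
theorem result {ι X : Type} [Fintype ι] [DecidableEq ι] [Nonempty ι] [MetricSpace X]
    [BoundedSpace X] (s : ι → X) :
    ratio ι X s ≤ ratio (Option ι) (Pad X) (padConf s) :=
  ratio_le_ratio_pad s

end Vale.Agent.Results.P304.PaddingLemma
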